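import Crest.Agent.X212.Dz34.Defs
import Crest.Agent.X212.Dz34.Cok
import Crest.Agent.X212.Dz34.Lin
import Crest.Agent.X212.Dz34.Ucp
import Crest.Agent.X212.Dz34.Core
import Crest.Agent.X212.Dz34.Main
import Crest.Agent.X212.Mcg32.DzN
import Crest.Agent.X212.Mcg32.DzI
import Crest.Agent.X212.Mcg32.DzM
import Crest.Agent.X212.Wd45.Stat
import Crest.Agent.X212.Dns43.Slab
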